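import Vale.Agent.P042.Greedy
import Vale.Agent.P042.Values
import Vale.Agent.P042.Count

/-!
# P042: a lower bound for `r_h(N)` valid for every polynomial `h`

For every integer polynomial `h` of degree `k ≥ 1` with positive leading coefficient there is a
constant `B` such that for all `N` and all `M` with `2 N < (M + 1) ^ k` some subset `A` of
`{1, ..., N}` has no difference equal to a nonzero value `h(n)`, `n ≥ 1`, and
`N ≤ |A| (1 + B + M)`.
-/

namespace Vale.Agent.Results.P042.GeneralLowerBound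

open Vale.Agent.P042 Finset

theorem result (h : Polynomial ℤ) (hk1 : 1 ≤ h.natDegree) (hlead : 0 < h.leadingCoeff) :
    ∃ B : ℕ, ∀ N M : ℕ, 2 * N < (M + 1) ^ h.natDegree →
      ∃ A : Finset ℕ, A ⊆ Finset.Icc 1 N ∧
        (∀ a ∈ A, ∀ b ∈ A, ∀ n : ℕ, 1 ≤ n → (a : ℤ) - (b : ℤ) = h.eval (n : ℤ) → a = b) ∧
        N ≤ A.card * (1 + B + M) := by
  obtain ⟨B, hB⟩ := large_values h hk1 hlead
  refine ⟨B, fun N M hM => ?_⟩
  obtain ⟨H, hHc, hH⟩ := count_le (fun n : ℕ => h.eval (n : ℤ)) h.natDegree B N M hk1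
    (fun n hn hle => hB N n hn hle) hM
  obtain ⟨A, hA, hfree, hcard⟩ := greedy H (Finset.Icc 1 N)
  refine ⟨A, hA, ?_, ?_⟩
  · intro a ha b hb n hn hab
    have ha' := Finset.mem_Icc.1 (hA ha)
    have hb' := Finset.mem_Icc.1 (hA hb)
    rcases lt_trichotomy a b with hlt | heq | hgt
    · exfalso
      apply hfree a ha b hb hlt
      apply hH (b - a) (by omega) n hn
      right
      show h.eval (n : ℤ) = -((b - a : ℕ) : ℤ)
      rw [← hab]
      push_cast [Nat.cast_sub hlt.le]
      ring
    · exact heq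
    · exfalso
      apply hfree b hb a ha hgt
      apply hH (a - b) (by omega) n hn
      left
      show h.eval (n : ℤ) = ((a - b : ℕ) : ℤ)
      rw [← hab]
      push_cast [Nat.cast_sub hgt.le]
      ring
  · have h1 : (Finset.Icc 1 N).card = N := by simp
    rw [h1] at hcard
    calc N ≤ A.card * (1 + H.card) := hcard
      _ ≤ A.card * (1 + B + M) := Nat.mul_le_mul_left _ (by omega)

end Vale.Agent.Results.P042.GeneralLowerBound
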